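import Vale.Agent.Lib.P331.Defs

/-!
# P331: the deterministic part
-/

open MeasureTheory Set
open scoped ENNReal NNReal

namespace Vale.Agent.P331

variable {E : Type} [Fintype E] [DecidableEq E] (M : Matroid E)

/-- the set protected against an element of value `x`: sample value at least `L x` -/
def WL (L : ℝ≥0) (s : E → ℝ≥0) (x : ℝ≥0) : Set E := {f | L * x ≤ s f}

/-- condition of acceptance -/
def okP (W : (E → ℝ≥0) → ℝ≥0 → Set E) (s : E → ℝ≥0) (A : Finset E) (e : E) (x : ℝ≥0) : Prop :=
  0 < x ∧ e ∉ M.closure ((A : Set E) ∪ W s x)

open Classical in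
/-- accepted set as a function of the history -/
noncomputable def accH (W : (E → ℝ≥0) → ℝ≥0 → Set E) (s : E → ℝ≥0) : List (E × ℝ≥0) → Finset E
  | [] => ∅
  | a :: h => if okP M W s (accH W s h) a.1 a.2 then insert a.1 (accH W s h) else accH W s h

open Classical in
/-- the rule: accept if the value is positive and the element is not spanned by the accepted
elements and the protected elements -/
noncomputable def theRule (W : (E → ℝ≥0) → ℝ≥0 → Set E) : Rule E := fun s h =>
  match h with
  | [] => false
  | a :: h => decide (okP M W s (accH M W s h) a.1 a.2)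

theorem accepted_eq (W : (E → ℝ≥0) → ℝ≥0 → Set E) (s v : E → ℝ≥0) (l : List E) :
    accepted (theRule M W) s v l = accH M W s (l.map fun f => (f, v f)) := by
  classical
  induction l with
  | nil => rfl
  | cons e l ih =>
    have e1 : theRule M W s ((e :: l).map fun f => (f, v f)) =
        decide (okP M W s (accH M W s (l.map fun f => (f, v f))) e (v e)) := rfl
    have e2 : accepted (theRule M W) s v (e :: l) =
        if theRule M W s ((e :: l).map fun f => (f, v f)) = true then
          insert e (accepted (theRule M W) s v l) else accepted (theRule M W) s v l := rfl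
    rw [e2, e1, ih]
    simp only [List.map_cons, accH]
    by_cases h : okP M W s (accH M W s (l.map fun f => (f, v f))) e (v e)
    · rw [if_pos h, if_pos (decide_eq_true h)]
    · rw [if_neg h, if_neg (by simp [h])]

theorem accepted_cons (W : (E → ℝ≥0) → ℝ≥0 → Set E) (s v : E → ℝ≥0) (e : E) (l : List E) :
    (okP M W s (accepted (theRule M W) s v l) e (v e) ∧
      accepted (theRule M W) s v (e :: l) = insert e (accepted (theRule M W) s v l)) ∨
    (¬ okP M W s (accepted (theRule M W) s v l) e (v e) ∧
      accepted (theRule M W) s v (e :: l) = accepted (theRule M W) s v l) := by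
  rw [accepted_eq, accepted_eq]
  simp only [List.map_cons, accH]
  by_cases h : okP M W s (accH M W s (l.map fun f => (f, v f))) e (v e)
  · left
    exact ⟨h, if_pos h⟩
  · right
    exact ⟨h, if_neg h⟩

theorem mem_accepted (W : (E → ℝ≥0) → ℝ≥0 → Set E) (s v : E → ℝ≥0) (l : List E) (x : E)
    (hx : x ∈ accepted (theRule M W) s v l) : x ∈ l := by
  induction l with
  | nil => simp [accepted] at hx
  | cons e l ih =>
    rcases accepted_cons M W s v e l with ⟨_, h⟩ | ⟨_, h⟩
    · rw [h, Finset.mem_insert] at hx
      rcases hx with rfl | hx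
      · exact List.mem_cons_self
      · exact List.mem_cons_of_mem _ (ih hx)
    · rw [h] at hx
      exact List.mem_cons_of_mem _ (ih hx)

theorem indep_accepted (hM : M.E = univ) (W : (E → ℝ≥0) → ℝ≥0 → Set E) (s v : E → ℝ≥0) (l : List E) :
    M.Indep (accepted (theRule M W) s v l : Set E) := by
  induction l with
  | nil => simp [accepted]
  | cons e l ih =>
    rcases accepted_cons M W s v e l with ⟨hok, h⟩ | ⟨_, h⟩
    · rw [h, Finset.coe_insert]
      have h1 : e ∉ M.closure (accepted (theRule M W) s v l : Set E) := fun hc =>
        hok.2 (M.closure_subset_closure subset_union_left hc)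
      have h2 := (ih.notMem_closure_iff (by rw [hM]; exact mem_univ e)).mp h1
      exact h2.1
    · rw [h]
      exact ih

/-- rank as a natural number -/
noncomputable def R (X : Set E) : ℕ := (M.eRk X).toNat

omit [DecidableEq E] in
theorem R_cast (X : Set E) : (R M X : ℕ∞) = M.eRk X := by
  unfold R
  exact ENat.natCast_toNat (ne_of_lt (lt_of_le_of_lt (M.eRk_le_encard X)
    (toFinite X).encard_lt_top))

omit [DecidableEq E] in
theorem R_mono {X Y : Set E} (h : X ⊆ Y) : R M X ≤ R M Y := by
  have := M.eRk_mono h
  rw [← R_cast, ← R_cast] at this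
  exact_mod_cast this

omit [DecidableEq E] in
theorem R_insert_le (e : E) (X : Set E) : R M (insert e X) ≤ R M X + 1 := by
  have := M.eRk_insert_le_add_one e X
  rw [← R_cast, ← R_cast] at this
  exact_mod_cast this

omit [DecidableEq E] in
theorem R_insert_eq (hM : M.E = univ) {e : E} {X : Set E} (h : e ∉ M.closure X) :
    R M (insert e X) = R M X + 1 := by
  have := M.eRk_insert_eq_add_one (e := e) (X := X) ⟨by rw [hM]; exact mem_univ e, h⟩
  rw [← R_cast, ← R_cast] at this
  exact_mod_cast this

omit [DecidableEq E] in
theorem R_union_of_subset (hM : M.E = univ) {X Y : Set E} (h : Y ⊆ M.closure X) :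
    R M (X ∪ Y) ≤ R M X := by
  have h1 : X ∪ Y ⊆ M.closure X :=
    union_subset (M.subset_closure X (by rw [hM]; exact subset_univ X)) h
  have h2 : R M (M.closure X) = R M X := by
    unfold R
    rw [M.eRk_closure_eq]
  rw [← h2]
  exact R_mono M h1

theorem pos_accepted (W : (E → ℝ≥0) → ℝ≥0 → Set E) (s v : E → ℝ≥0) (l : List E) (x : E)
    (hx : x ∈ accepted (theRule M W) s v l) : 0 < v x := by
  induction l with
  | nil => simp [accepted] at hx
  | cons e l ih =>
    rcases accepted_cons M W s v e l with ⟨hok, h⟩ | ⟨_, h⟩
    · rw [h, Finset.mem_insert] at hx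
      rcases hx with rfl | hx
      · exact hok.1
      · exact ih hx
    · rw [h] at hx
      exact ih hx

/-- the greedy rule accepts every element of positive value which is not spanned by the other
elements of positive value -/
theorem greedy_mem (s v : E → ℝ≥0) (l : List E) (hl : l.Nodup) (e : E) (he : e ∈ l)
    (hv : 0 < v e) (hn : e ∉ M.closure {f | f ≠ e ∧ 0 < v f}) :
    e ∈ accepted (theRule M fun _ _ => ∅) s v l := by
  induction l with
  | nil => simp at he
  | cons x l ih =>
    rcases List.mem_cons.mp he with rfl | he
    · rcases accepted_cons M (fun _ _ => ∅) s v e l with ⟨_, h⟩ | ⟨hok, h⟩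
      · rw [h]
        exact Finset.mem_insert_self _ _
      · exfalso
        refine hok ⟨hv, fun hc => hn (M.closure_subset_closure ?_ hc)⟩
        intro f hf
        rcases hf with hf | hf
        · refine ⟨?_, pos_accepted M _ s v l f hf⟩
          rintro rfl
          exact (List.nodup_cons.mp hl).1 (mem_accepted M _ s v l f hf)
        · exact absurd hf (Set.notMem_empty f)
    · have h1 := ih hl.of_cons he
      rcases accepted_cons M (fun _ _ => ∅) s v x l with ⟨_, h⟩ | ⟨_, h⟩
      · rw [h]
        exact Finset.mem_insert_of_mem h1
      · rw [h]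
        exact h1

/-- elements of value at least `t` are spanned in the end -/
theorem spanned (hM : M.E = univ) (L t : ℝ≥0) (ht : 0 < t) (s v : E → ℝ≥0) (l : List E) (q : E)
    (hq : q ∈ l) (hv : t ≤ v q) :
    q ∈ M.closure ((accepted (theRule M (WL L)) s v l : Set E) ∪ {f | L * t ≤ s f}) := by
  induction l with
  | nil => simp at hq
  | cons e l ih =>
    rcases List.mem_cons.mp hq with rfl | hq
    · rcases accepted_cons M (WL L) s v q l with ⟨_, h⟩ | ⟨hok, h⟩
      · rw [h]
        refine M.mem_closure_of_mem ?_ (by rw [hM]; exact subset_univ _)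
        left
        simp
      · rw [h]
        unfold okP at hok
        push Not at hok
        have h1 := hok (lt_of_lt_of_le ht hv)
        refine M.closure_subset_closure (union_subset_union_right _ ?_) h1
        intro f hf
        exact le_trans (mul_le_mul_of_nonneg_left hv zero_le) hf
    · have h1 := ih hq
      rcases accepted_cons M (WL L) s v e l with ⟨_, h⟩ | ⟨_, h⟩
      · rw [h]
        refine M.closure_subset_closure (union_subset_union_left _ ?_) h1
        rw [Finset.coe_insert]
        exact subset_insert _ _
      · rw [h]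
        exact h1

/-- the potential inequality -/
theorem potential (hM : M.E = univ) (L c1 c2 : ℝ≥0) (hc : c1 ≤ c2) (s v : E → ℝ≥0)
    (Q : Set E) (hQ : Q ⊆ M.closure {f | c1 ≤ s f}) (l : List E) (hl : l.Nodup) :
    R M (Q ∪ {f | c2 ≤ s f}) + R M ((accepted (theRule M (WL L)) s v l : Set E) ∪ {f | c2 ≤ s f}) ≤
      R M {f | c2 ≤ s f} +
        R M ((accepted (theRule M (WL L)) s v l : Set E) ∪ (Q ∪ {f | c2 ≤ s f})) +
        ((accepted (theRule M (WL L)) s v l).filter fun a => c1 < L * v a).card := by
  induction l with
  | nil =>
    simp only [accepted, Finset.coe_empty, empty_union, Finset.filter_empty, Finset.card_empty]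
    omega
  | cons e l ih =>
    have ih' := ih hl.of_cons
    have hel : e ∉ accepted (theRule M (WL L)) s v l := fun h =>
      (List.nodup_cons.mp hl).1 (mem_accepted M (WL L) s v l e h)
    rcases accepted_cons M (WL L) s v e l with ⟨hok, h⟩ | ⟨_, h⟩
    · rw [h, Finset.coe_insert, insert_union, insert_union]
      have h1 := R_insert_le M e ((accepted (theRule M (WL L)) s v l : Set E) ∪ {f | c2 ≤ s f})
      by_cases hcase : c1 < L * v e
      · have h2 : ((insert e (accepted (theRule M (WL L)) s v l)).filter
            fun a => c1 < L * v a).card =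
            ((accepted (theRule M (WL L)) s v l).filter fun a => c1 < L * v a).card + 1 := by
          rw [Finset.filter_insert, if_pos hcase, Finset.card_insert_of_notMem]
          intro hh
          exact hel (Finset.mem_filter.mp hh).1
        have h3 := R_mono M (subset_insert e
          ((accepted (theRule M (WL L)) s v l : Set E) ∪ (Q ∪ {f | c2 ≤ s f})))
        omega
      · have hle : L * v e ≤ c1 := not_lt.mp hcase
        have h2 : ((insert e (accepted (theRule M (WL L)) s v l)).filter
            fun a => c1 < L * v a).card =
            ((accepted (theRule M (WL L)) s v l).filter fun a => c1 < L * v a).card := by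
          rw [Finset.filter_insert, if_neg hcase]
        have h3 : e ∉ M.closure ((accepted (theRule M (WL L)) s v l : Set E) ∪
            (Q ∪ {f | c2 ≤ s f})) := by
          intro hc'
          refine hok.2 ?_
          have hsub : (accepted (theRule M (WL L)) s v l : Set E) ∪ (Q ∪ {f | c2 ≤ s f}) ⊆
              M.closure ((accepted (theRule M (WL L)) s v l : Set E) ∪ {f | L * v e ≤ s f}) := by
            have hg : (accepted (theRule M (WL L)) s v l : Set E) ∪ {f | L * v e ≤ s f} ⊆ M.E := by
              rw [hM]; exact subset_univ _
            have hg2 := M.subset_closure _ hg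
            have hsub2 : {f | c1 ≤ s f} ⊆
                (accepted (theRule M (WL L)) s v l : Set E) ∪ {f | L * v e ≤ s f} := by
              intro f hf
              right
              exact le_trans hle hf
            intro f hf
            rcases hf with hf | hf | hf
            · exact hg2 (Or.inl hf)
            · exact M.closure_subset_closure hsub2 (hQ hf)
            · exact hg2 (Or.inr (le_trans hle (le_trans hc hf)))
          have := M.closure_subset_closure_of_subset_closure hsub hc'
          exact this
        have h4 := R_insert_eq M hM h3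
        omega
    · rw [h]
      exact ih'

/-- the main pointwise inequality -/
theorem main_pt (hM : M.E = univ) (L t c1 : ℝ≥0) (ht : 0 < t) (hc : c1 ≤ L * t)
    (s v : E → ℝ≥0) (l : List E) (hl : l.Nodup) (hall : ∀ e, e ∈ l) :
    R M ({f | t ≤ v f} ∩ M.closure {f | c1 ≤ s f}) ≤ R M {f | L * t ≤ s f} +
      ((accepted (theRule M (WL L)) s v l).filter fun a => c1 < L * v a).card := by
  have h1 := potential M hM L c1 (L * t) hc s v
    ({f | t ≤ v f} ∩ M.closure {f | c1 ≤ s f}) inter_subset_right l hl
  have h2 : R M ((accepted (theRule M (WL L)) s v l : Set E) ∪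
      (({f | t ≤ v f} ∩ M.closure {f | c1 ≤ s f}) ∪ {f | L * t ≤ s f})) ≤
      R M ((accepted (theRule M (WL L)) s v l : Set E) ∪ {f | L * t ≤ s f}) := by
    have h3 : {f | t ≤ v f} ∩ M.closure {f | c1 ≤ s f} ⊆
        M.closure ((accepted (theRule M (WL L)) s v l : Set E) ∪ {f | L * t ≤ s f}) := fun q hq =>
      spanned M hM L t ht s v l q (hall q) hq.1
    refine le_trans (R_mono M ?_) (R_union_of_subset M hM h3)
    intro f hf
    rcases hf with hf | hf | hf
    · exact Or.inl (Or.inl hf)
    · exact Or.inr hf
    · exact Or.inl (Or.inr hf)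
  have h4 := R_mono M (subset_union_left :
    ({f | t ≤ v f} ∩ M.closure {f | c1 ≤ s f}) ⊆ _ ∪ {f | L * t ≤ s f})
  omega

end Vale.Agent.P331
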