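import Mathlib

/-!
# P331: one-sample online rules for matroids: definitions
-/

open MeasureTheory Set
open scoped ENNReal NNReal

namespace Vale.Agent.P331

variable {E : Type} [DecidableEq E]

/-- A deterministic one-sample online rule.  Its arguments are the sample `s` and the list of the
arrivals so far with their values, the latest arrival first; its value says whether the latest
arrival is accepted. -/
abbrev Rule (E : Type) : Type := (E → ℝ≥0) → List (E × ℝ≥0) → Bool

/-- The set accepted by the rule `ρ` when the sample is `s`, the values are `v` and the elements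
arrived so far are listed in `l`, the latest arrival first. -/
def accepted (ρ : Rule E) (s v : E → ℝ≥0) : List E → Finset E
  | [] => ∅
  | e :: l => if ρ s ((e :: l).map fun f => (f, v f)) = true then insert e (accepted ρ s v l)
      else accepted ρ s v l

/-- total value of the accepted set -/
noncomputable def gain (ρ : Rule E) (s v : E → ℝ≥0) (l : List E) : ℝ≥0∞ :=
  ∑ e ∈ accepted ρ s v l, (v e : ℝ≥0∞)

/-- maximum total value of an independent set -/
noncomputable def OPT (M : Matroid E) (v : E → ℝ≥0) : ℝ≥0∞ :=
  ⨆ (I : Finset E) (_ : M.Indep (I : Set E)), ∑ e ∈ I, (v e : ℝ≥0∞)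

/-- the decisions of the rule depend measurably on the sample and on the values -/
def RuleMeasurable (ρ : Rule E) : Prop :=
  ∀ l : List E, MeasurableSet {z : (E → ℝ≥0) × (E → ℝ≥0) |
    ρ z.1 (l.map fun f => (f, z.2 f)) = true}

/-- `e` is loaded: whenever `e` can have a value at least `c`, the elements (`e` included) whose
sample is at least `c / K` span `e` with probability at least `p` -/
def Loaded [Fintype E] (M : Matroid E) (D : E → Measure ℝ≥0) (p K : ℝ≥0) (e : E) : Prop :=
  ∀ c : ℝ≥0, 0 < c → D e (Ici c) ≠ 0 →
    (p : ℝ≥0∞) ≤ Measure.pi D {s | e ∈ M.closure {f | c / K ≤ s f}}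

/-- `e` is isolated: with probability at least `p` the other elements of positive value do not
span `e` -/
def Isolated [Fintype E] (M : Matroid E) (D : E → Measure ℝ≥0) (p : ℝ≥0) (e : E) : Prop :=
  (p : ℝ≥0∞) ≤ Measure.pi D {v | e ∉ M.closure {f | f ≠ e ∧ 0 < v f}}

end Vale.Agent.P331
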