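import Vale.Agent.Lib.P331.Geo

/-!
# P331: expectations
-/

open MeasureTheory Set
open scoped ENNReal NNReal

namespace Vale.Agent.P331

variable {E : Type} [Fintype E] [DecidableEq E] (M : Matroid E)

omit [DecidableEq E] in
theorem card_le_R (I : Finset E) (hI : M.Indep (I : Set E)) {X : Set E} (hIX : (I : Set E) ⊆ X) :
    I.card ≤ R M X := by
  have h := hI.encard_le_eRk_of_subset hIX
  rw [← R_cast, Set.encard_coe_eq_coe_finsetCard] at h
  exact_mod_cast h

omit [DecidableEq E] in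
theorem exists_basis (hM : M.E = univ) (X : Set E) :
    ∃ I : Finset E, M.Indep (I : Set E) ∧ (I : Set E) ⊆ X ∧ I.card = R M X := by
  classical
  obtain ⟨I, hI⟩ := M.exists_isBasis X (by rw [hM]; exact subset_univ X)
  refine ⟨I.toFinset, ?_, ?_, ?_⟩
  · rw [Set.coe_toFinset]
    exact hI.indep
  · rw [Set.coe_toFinset]
    exact hI.subset
  · have h := hI.encard_eq_eRk
    rw [← R_cast] at h
    have h2 : ((I.toFinset.card : ℕ) : ℕ∞) = (R M X : ℕ∞) := by
      rw [← h, ← Set.encard_coe_eq_coe_finsetCard, Set.coe_toFinset]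
    exact_mod_cast h2

omit [DecidableEq E] in
theorem measurable_R (c : ℝ≥0) :
    Measurable fun v : E → ℝ≥0 => (R M {f | c ≤ v f} : ℝ≥0∞) :=
  (measurable_of_finite fun X : Set E => (R M X : ℝ≥0∞)).comp (measurable_lev c)

theorem OPT_le (v : E → ℝ≥0) :
    OPT M v ≤ ∑' J : ℤ, (tt J : ℝ≥0∞) * (R M {f | tt J ≤ v f} : ℝ≥0∞) := by
  unfold OPT
  refine iSup₂_le fun I hI => ?_
  calc ∑ e ∈ I, (v e : ℝ≥0∞) ≤ ∑ e ∈ I, GG (v e) := Finset.sum_le_sum fun e _ => le_GG (v e)
    _ = ∑' J : ℤ, ∑ e ∈ I, (if tt J ≤ v e then (tt J : ℝ≥0∞) else 0) := by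
        unfold GG
        rw [Summable.tsum_finsetSum fun _ _ => ENNReal.summable]
    _ ≤ _ := by
        refine ENNReal.tsum_le_tsum fun J => ?_
        rw [← Finset.sum_filter, Finset.sum_const, nsmul_eq_mul, mul_comm]
        refine mul_le_mul_right ?_ _
        have h1 : (I.filter fun e => tt J ≤ v e).card ≤ R M {f | tt J ≤ v f} := by
          refine card_le_R M _ (hI.subset ?_) ?_
          · intro x hx
            exact (Finset.mem_filter.mp hx).1
          · intro x hx
            exact (Finset.mem_filter.mp hx).2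
        exact_mod_cast h1

theorem sum_R_le (hM : M.E = univ) (v : E → ℝ≥0) :
    ∑' J : ℤ, (tt J : ℝ≥0∞) * (R M {f | tt J ≤ v f} : ℝ≥0∞) ≤
      2 * (Fintype.card E : ℝ≥0∞) * OPT M v := by
  classical
  calc ∑' J : ℤ, (tt J : ℝ≥0∞) * (R M {f | tt J ≤ v f} : ℝ≥0∞)
      ≤ ∑' J : ℤ, ∑ e ∈ Finset.univ.filter (fun e => M.Indep {e}),
          (if tt J ≤ v e then (tt J : ℝ≥0∞) else 0) := by
        refine ENNReal.tsum_le_tsum fun J => ?_
        rw [← Finset.sum_filter, Finset.sum_const, nsmul_eq_mul, mul_comm]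
        refine mul_le_mul_left ?_ _
        obtain ⟨I, hI, hIX, hc⟩ := exists_basis M hM {f | tt J ≤ v f}
        rw [← hc]
        have h1 : I ⊆ (Finset.univ.filter (fun e => M.Indep {e})).filter
            fun e => tt J ≤ v e := by
          intro e he
          rw [Finset.mem_filter, Finset.mem_filter]
          refine ⟨⟨Finset.mem_univ e, hI.subset ?_⟩, hIX he⟩
          intro x hx
          rw [Set.mem_singleton_iff] at hx
          rw [hx]
          exact he
        exact_mod_cast Finset.card_le_card h1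
    _ = ∑ e ∈ Finset.univ.filter (fun e => M.Indep {e}), GG (v e) := by
        unfold GG
        rw [Summable.tsum_finsetSum fun _ _ => ENNReal.summable]
    _ ≤ ∑ _e ∈ Finset.univ.filter (fun e => M.Indep {e}), 2 * OPT M v := by
        refine Finset.sum_le_sum fun e he => (GG_le (v e)).trans ?_
        refine mul_le_mul_right ?_ 2
        unfold OPT
        have h1 : M.Indep (({e} : Finset E) : Set E) := by
          rw [Finset.coe_singleton]
          exact (Finset.mem_filter.mp he).2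
        have h2 := le_iSup₂ (f := fun (I : Finset E) (_ : M.Indep (I : Set E)) =>
          ∑ e ∈ I, (v e : ℝ≥0∞)) {e} h1
        simpa using h2
    _ ≤ 2 * (Fintype.card E : ℝ≥0∞) * OPT M v := by
        rw [Finset.sum_const, nsmul_eq_mul]
        have h1 : ((Finset.univ.filter (fun e => M.Indep {e})).card : ℝ≥0∞) ≤
            (Fintype.card E : ℝ≥0∞) := by
          exact_mod_cast Finset.card_le_univ _
        calc ((Finset.univ.filter (fun e => M.Indep {e})).card : ℝ≥0∞) * (2 * OPT M v)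
            ≤ (Fintype.card E : ℝ≥0∞) * (2 * OPT M v) := mul_le_mul_left h1 _
          _ = 2 * (Fintype.card E : ℝ≥0∞) * OPT M v := by ring

variable (D : E → Measure ℝ≥0) [∀ e, IsProbabilityMeasure (D e)]

/-- expected rank of the set of elements of value at least `c` -/
noncomputable def rr (c : ℝ≥0) : ℝ≥0∞ := ∫⁻ v, (R M {f | c ≤ v f} : ℝ≥0∞) ∂(Measure.pi D)

/-- dyadic sum of the expected ranks -/
noncomputable def XX : ℝ≥0∞ := ∑' J : ℤ, (tt J : ℝ≥0∞) * rr M D (tt J)

omit [DecidableEq E] in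
theorem XX_eq : XX M D = ∫⁻ v, ∑' J : ℤ, (tt J : ℝ≥0∞) * (R M {f | tt J ≤ v f} : ℝ≥0∞)
    ∂(Measure.pi D) := by
  unfold XX rr
  rw [lintegral_tsum fun J => ((measurable_R M (tt J)).const_mul _).aemeasurable]
  refine tsum_congr fun J => ?_
  rw [lintegral_const_mul _ (measurable_R M (tt J))]

theorem OPT_le_XX : ∫⁻ v, OPT M v ∂(Measure.pi D) ≤ XX M D := by
  rw [XX_eq]
  exact lintegral_mono fun v => OPT_le M v

theorem XX_ne_top (hM : M.E = univ) (h : ∫⁻ v, OPT M v ∂(Measure.pi D) ≠ ⊤) : XX M D ≠ ⊤ := by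
  rw [XX_eq]
  refine ne_of_lt (lt_of_le_of_lt (lintegral_mono fun v => sum_R_le M hM v) ?_)
  have h1 : (2 * (Fintype.card E : ℝ≥0∞)) ≠ ⊤ :=
    ENNReal.mul_ne_top (by norm_num) (ENNReal.natCast_ne_top _)
  rw [lintegral_const_mul' _ _ h1]
  exact ENNReal.mul_lt_top (lt_top_iff_ne_top.mpr h1) (lt_top_iff_ne_top.mpr h)

/-- the part of the high elements protected by the sample -/
noncomputable def QQ (c d : ℝ≥0) (s v : E → ℝ≥0) : Set E :=
  {f | c ≤ v f} ∩ M.closure {f | d ≤ s f}

omit [DecidableEq E] in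
theorem measurable_two (F : Set E → Set E → ℝ≥0∞) (c d : ℝ≥0) :
    Measurable fun z : (E → ℝ≥0) × (E → ℝ≥0) => F {f | c ≤ z.1 f} {f | d ≤ z.2 f} := by
  have h1 : Measurable fun z : (E → ℝ≥0) × (E → ℝ≥0) =>
      (({f | c ≤ z.1 f}, {f | d ≤ z.2 f}) : Set E × Set E) :=
    ((measurable_lev c).comp measurable_fst).prodMk ((measurable_lev d).comp measurable_snd)
  exact (measurable_of_finite fun X : Set E × Set E => F X.1 X.2).comp h1

omit [DecidableEq E] in
theorem measurable_RG (G : Set E) (c : ℝ≥0) :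
    Measurable fun v : E → ℝ≥0 => (R M ({f | c ≤ v f} ∩ G) : ℝ≥0∞) :=
  (measurable_of_finite fun X : Set E => (R M (X ∩ G) : ℝ≥0∞)).comp (measurable_lev c)

/-- protected rank in expectation -/
theorem prot (hM : M.E = univ) (p : ℝ≥0∞) (c d : ℝ≥0) (G : Set E)
    (hD : ∀ e ∈ G, D e (Ici c) ≠ 0 → p ≤ Measure.pi D {s | e ∈ M.closure {f | d ≤ s f}}) :
    p * ∫⁻ v, (R M ({f | c ≤ v f} ∩ G) : ℝ≥0∞) ∂(Measure.pi D) ≤ ∫⁻ z, (R M (QQ M c d z.1 z.2) : ℝ≥0∞)
      ∂((Measure.pi D).prod (Measure.pi D)) := by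
  classical
  have hm : Measurable fun z : (E → ℝ≥0) × (E → ℝ≥0) => (R M (QQ M c d z.1 z.2) : ℝ≥0∞) :=
    measurable_two (fun Y X => (R M (X ∩ M.closure Y) : ℝ≥0∞)) d c
  rw [lintegral_prod_symm _ hm.aemeasurable]
  rw [← lintegral_const_mul _ (measurable_RG M G c)]
  refine lintegral_mono_ae ?_
  have hae : ∀ᵐ v ∂(Measure.pi D), ∀ e, c ≤ v e → D e (Ici c) ≠ 0 := by
    rw [ae_all_iff]
    intro e
    by_cases he : D e (Ici c) = 0
    · have h1 : (Measure.pi D) {v : E → ℝ≥0 | c ≤ v e} = 0 := by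
        have h2 := (measurePreserving_eval D e).measure_preimage
          (measurableSet_Ici (a := c)).nullMeasurableSet
        rw [he] at h2
        exact h2
      have h3 : ∀ᵐ v ∂(Measure.pi D), ¬ (c ≤ v e) := by
        rw [ae_iff]
        simpa using h1
      filter_upwards [h3] with v hv hc
      exact absurd hc hv
    · exact Filter.Eventually.of_forall fun _ _ => he
  filter_upwards [hae] with v hv
  obtain ⟨I, hI, hIX, hc⟩ := exists_basis M hM ({f | c ≤ v f} ∩ G)
  have hset : ∀ e, MeasurableSet {s : E → ℝ≥0 | e ∈ M.closure {f | d ≤ s f}} := by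
    intro e
    have h1 : Measurable fun s : E → ℝ≥0 => (e ∈ M.closure {f | d ≤ s f} : Prop) :=
      (measurable_of_finite fun X : Set E => (e ∈ M.closure X : Prop)).comp (measurable_lev d)
    exact measurableSet_setOfPred.mpr h1
  calc p * (R M ({f | c ≤ v f} ∩ G) : ℝ≥0∞) = ∑ _e ∈ I, p := by
        rw [← hc, Finset.sum_const, nsmul_eq_mul, mul_comm]
    _ ≤ ∑ e ∈ I, Measure.pi D {s | e ∈ M.closure {f | d ≤ s f}} :=
        Finset.sum_le_sum fun e he => hD e (hIX he).2 (hv e (hIX he).1)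
    _ = ∑ e ∈ I, ∫⁻ s, ({s | e ∈ M.closure {f | d ≤ s f}} : Set (E → ℝ≥0)).indicator 1 s
          ∂(Measure.pi D) := by
        refine Finset.sum_congr rfl fun e _ => ?_
        rw [lintegral_indicator_one (hset e)]
    _ = ∫⁻ s, ∑ e ∈ I, ({s | e ∈ M.closure {f | d ≤ s f}} : Set (E → ℝ≥0)).indicator 1 s
          ∂(Measure.pi D) := by
        rw [lintegral_finsetSum]
        intro e _
        exact measurable_one.indicator (hset e)
    _ ≤ ∫⁻ s, (R M (QQ M c d s v) : ℝ≥0∞) ∂(Measure.pi D) := by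
        refine lintegral_mono fun s => ?_
        have h1 : ∑ e ∈ I, ({s | e ∈ M.closure {f | d ≤ s f}} : Set (E → ℝ≥0)).indicator
            (1 : (E → ℝ≥0) → ℝ≥0∞) s =
            ((I.filter fun e => e ∈ M.closure {f | d ≤ s f}).card : ℝ≥0∞) := by
          rw [Finset.natCast_card_filter]
          refine Finset.sum_congr rfl fun e _ => ?_
          simp only [Set.indicator_apply, Set.mem_ofPred_eq, Pi.one_apply]
        rw [h1]
        have h2 : (I.filter fun e => e ∈ M.closure {f | d ≤ s f}).card ≤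
            R M (QQ M c d s v) := by
          refine card_le_R M _ (hI.subset ?_) ?_
          · intro x hx
            exact (Finset.mem_filter.mp hx).1
          · intro x hx
            have hx' := Finset.mem_filter.mp hx
            exact ⟨(hIX hx'.1).1, hx'.2⟩
        exact Nat.cast_le.mpr h2

/-- gain bound -/
theorem gain_ge (hM : M.E = univ) (l : ℕ) (K : ℝ≥0) (hK : 1 ≤ K) (s v : E → ℝ≥0)
    (o : List E) (ho : o.Nodup) (hall : ∀ e, e ∈ o) :
    ∑' J : ℤ, (tt J : ℝ≥0∞) * ((R M (QQ M (tt J) (tt J / K) s v) -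
      R M {f | tt (J + l) ≤ s f} : ℕ) : ℝ≥0∞) ≤
      2 * ((K * 2 ^ l : ℝ≥0) : ℝ≥0∞) * gain (theRule M (WL (2 ^ l))) s v o := by
  have hK0 : 0 < K := lt_of_lt_of_le one_pos hK
  calc ∑' J : ℤ, (tt J : ℝ≥0∞) * ((R M (QQ M (tt J) (tt J / K) s v) -
      R M {f | tt (J + l) ≤ s f} : ℕ) : ℝ≥0∞)
      ≤ ∑' J : ℤ, ∑ a ∈ accepted (theRule M (WL (2 ^ l))) s v o,
          (if tt J ≤ K * 2 ^ l * v a then (tt J : ℝ≥0∞) else 0) := by
        refine ENNReal.tsum_le_tsum fun J => ?_
        rw [← Finset.sum_filter, Finset.sum_const, nsmul_eq_mul, mul_comm]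
        refine mul_le_mul_left ?_ _
        have hle : tt J / K ≤ 2 ^ l * tt J := by
          calc tt J / K ≤ tt J := div_le_self zero_le hK
            _ = 1 * tt J := (one_mul _).symm
            _ ≤ 2 ^ l * tt J := mul_le_mul_left (one_le_pow₀ (by norm_num)) _
        have h1 := main_pt M hM (2 ^ l) (tt J) (tt J / K) (tt_pos J) hle s v o ho hall
        have h2 : (accepted (theRule M (WL (2 ^ l))) s v o).filter
            (fun a => tt J / K < 2 ^ l * v a) ⊆
            (accepted (theRule M (WL (2 ^ l))) s v o).filter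
              (fun a => tt J ≤ K * 2 ^ l * v a) := by
          intro a ha
          rw [Finset.mem_filter] at ha ⊢
          refine ⟨ha.1, ?_⟩
          have h3 := ha.2
          rw [div_lt_iff₀ hK0] at h3
          calc tt J ≤ 2 ^ l * v a * K := h3.le
            _ = K * 2 ^ l * v a := by ring
        have h4 := Finset.card_le_card h2
        have h5 : R M (QQ M (tt J) (tt J / K) s v) - R M {f | tt (J + l) ≤ s f} ≤
            ((accepted (theRule M (WL (2 ^ l))) s v o).filter
              (fun a => tt J ≤ K * 2 ^ l * v a)).card := by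
          rw [tt_add]
          unfold QQ
          omega
        exact_mod_cast h5
    _ = ∑ a ∈ accepted (theRule M (WL (2 ^ l))) s v o, GG (K * 2 ^ l * v a) := by
        unfold GG
        rw [Summable.tsum_finsetSum fun _ _ => ENNReal.summable]
    _ ≤ ∑ a ∈ accepted (theRule M (WL (2 ^ l))) s v o,
          2 * ((K * 2 ^ l : ℝ≥0) : ℝ≥0∞) * (v a : ℝ≥0∞) := by
        refine Finset.sum_le_sum fun a _ => (GG_le _).trans (le_of_eq ?_)
        rw [ENNReal.coe_mul, mul_assoc]
    _ = 2 * ((K * 2 ^ l : ℝ≥0) : ℝ≥0∞) * gain (theRule M (WL (2 ^ l))) s v o := by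
        unfold gain
        rw [Finset.mul_sum]

end Vale.Agent.P331
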