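import Vale.Agent.Lib.P331.Core

/-!
# P331: dyadic sums and measurability
-/

open MeasureTheory Set
open scoped ENNReal NNReal

namespace Vale.Agent.P331

/-- dyadic powers -/
noncomputable def tt (J : ℤ) : ℝ≥0 := (2 : ℝ≥0) ^ J

theorem tt_pos (J : ℤ) : 0 < tt J := zpow_pos (by norm_num) J

theorem tt_add (J : ℤ) (l : ℕ) : tt (J + l) = 2 ^ l * tt J := by
  unfold tt
  rw [zpow_add₀ (by norm_num), zpow_natCast, mul_comm]

/-- the sum of the dyadic powers at most `x` -/
noncomputable def GG (x : ℝ≥0) : ℝ≥0∞ := ∑' J : ℤ, if tt J ≤ x then (tt J : ℝ≥0∞) else 0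

theorem GG_eq {x : ℝ≥0} (hx : 0 < x) : GG x = 2 * (tt (Int.log 2 x) : ℝ≥0∞) := by
  set c := Int.log 2 x with hc
  have hiff : ∀ J : ℤ, tt J ≤ x ↔ J ≤ c := by
    intro J
    unfold tt
    have := Int.zpow_le_iff_le_log (b := 2) (R := ℝ≥0) (by norm_num) hx (x := J)
    rw [hc]
    simpa using this
  have hinj : Function.Injective fun i : ℕ => c - (i : ℤ) := by
    intro i j h
    simp only at h
    omega
  have hsup : Function.support (fun J : ℤ => if tt J ≤ x then (tt J : ℝ≥0∞) else 0) ⊆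
      Set.range fun i : ℕ => c - (i : ℤ) := by
    intro J hJ
    rw [Function.mem_support] at hJ
    have h1 : tt J ≤ x := by
      by_contra hcon
      exact hJ (if_neg hcon)
    have h2 := (hiff J).mp h1
    refine ⟨(c - J).toNat, ?_⟩
    simp only
    omega
  unfold GG
  rw [← hinj.tsum_eq hsup]
  have h3 : ∀ i : ℕ, (if tt (c - (i : ℤ)) ≤ x then (tt (c - (i : ℤ)) : ℝ≥0∞) else 0) =
      (tt c : ℝ≥0∞) * (2 : ℝ≥0∞)⁻¹ ^ i := by
    intro i
    rw [if_pos ((hiff _).mpr (by omega))]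
    have h4 : tt (c - (i : ℤ)) = tt c * (2 : ℝ≥0)⁻¹ ^ i := by
      unfold tt
      rw [zpow_sub₀ (by norm_num), zpow_natCast, inv_pow, div_eq_mul_inv]
    rw [h4, ENNReal.coe_mul, ENNReal.coe_pow, ENNReal.coe_inv (by norm_num)]
    norm_num
  simp only [h3]
  rw [ENNReal.tsum_mul_left, ENNReal.tsum_geometric, ENNReal.one_sub_inv_two, inv_inv, mul_comm]

theorem GG_zero : GG 0 = 0 := by
  unfold GG
  rw [ENNReal.tsum_eq_zero]
  intro J
  rw [if_neg (not_le.mpr (tt_pos J))]

theorem GG_le (x : ℝ≥0) : GG x ≤ 2 * (x : ℝ≥0∞) := by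
  rcases eq_or_lt_of_le (zero_le (a := x)) with h | h
  · rw [← h, GG_zero]
    exact zero_le
  · rw [GG_eq h]
    refine mul_le_mul_right ?_ 2
    have := Int.zpow_log_le_self (b := 2) (by norm_num) h
    unfold tt
    exact_mod_cast this

theorem le_GG (x : ℝ≥0) : (x : ℝ≥0∞) ≤ GG x := by
  rcases eq_or_lt_of_le (zero_le (a := x)) with h | h
  · rw [← h]
    simp
  · rw [GG_eq h]
    have h1 := Int.lt_zpow_succ_log_self (b := 2) (by norm_num) x
    have h2 : x ≤ 2 * tt (Int.log 2 x) := by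
      unfold tt
      have h3 : ((2 : ℕ) : ℝ≥0) ^ (Int.log 2 x + 1) = 2 * (2 : ℝ≥0) ^ (Int.log 2 x) := by
        rw [zpow_add₀ (by norm_num), zpow_one, mul_comm]
        norm_num
      rw [h3] at h1
      exact h1.le
    have h4 : ((2 * tt (Int.log 2 x) : ℝ≥0) : ℝ≥0∞) = 2 * (tt (Int.log 2 x) : ℝ≥0∞) := by
      push_cast
      rfl
    rw [← h4]
    exact_mod_cast h2

variable {E : Type} [Fintype E]

/-- the set of elements of value at least `c` is a measurable function of the values -/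
theorem measurable_lev (c : ℝ≥0) : Measurable fun s : E → ℝ≥0 => {f | c ≤ s f} := by
  rw [measurable_set_iff]
  intro a
  exact measurableSet_setOfPred.mp (measurableSet_le measurable_const (measurable_pi_apply a))

end Vale.Agent.P331
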