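import Vale.Agent.Lib.P331.Load

/-!
# P331: the isolated part
-/

open MeasureTheory Set ProbabilityTheory
open scoped ENNReal NNReal

namespace Vale.Agent.P331

variable {E : Type} [Fintype E] [DecidableEq E] (M : Matroid E)
variable (D : E → Measure ℝ≥0) [∀ e, IsProbabilityMeasure (D e)]

/-- the event that `e` is not spanned by the other elements of positive value -/
def isoS (e : E) : Set (E → ℝ≥0) := {v | e ∉ M.closure {f | f ≠ e ∧ 0 < v f}}

/-- the same event as a function of the other coordinates -/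
def isoT (e : E) : Set (↥(Finset.univ.erase e) → ℝ≥0) :=
  {u | e ∉ M.closure {f | ∃ h : f ∈ Finset.univ.erase e, 0 < u ⟨f, h⟩}}

theorem measurableSet_isoT (e : E) : MeasurableSet (isoT M e) := by
  have h1 : Measurable fun u : (↥(Finset.univ.erase e) → ℝ≥0) =>
      {f | ∃ h : f ∈ Finset.univ.erase e, 0 < u ⟨f, h⟩} := by
    rw [measurable_set_iff]
    intro a
    by_cases ha : a ∈ Finset.univ.erase e
    · have h2 : MeasurableSet {u : (↥(Finset.univ.erase e) → ℝ≥0) |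
          0 < u ⟨a, ha⟩} := measurableSet_lt measurable_const (measurable_pi_apply _)
      have h3 : (fun u : (↥(Finset.univ.erase e) → ℝ≥0) =>
          a ∈ {f | ∃ h : f ∈ Finset.univ.erase e, 0 < u ⟨f, h⟩}) =
          fun u => 0 < u ⟨a, ha⟩ := by
        funext u
        exact propext ⟨fun ⟨_, h⟩ => h, fun h => ⟨ha, h⟩⟩
      rw [h3]
      exact measurableSet_setOfPred.mp h2
    · have h3 : (fun u : (↥(Finset.univ.erase e) → ℝ≥0) =>
          a ∈ {f | ∃ h : f ∈ Finset.univ.erase e, 0 < u ⟨f, h⟩}) =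
          fun _ => False := by
        funext u
        exact propext ⟨fun ⟨h, _⟩ => ha h, fun h => h.elim⟩
      rw [h3]
      exact measurable_const
  have h2 : Measurable fun u : (↥(Finset.univ.erase e) → ℝ≥0) =>
      (e ∉ M.closure {f | ∃ h : f ∈ Finset.univ.erase e,
        0 < u ⟨f, h⟩} : Prop) :=
    (measurable_of_finite fun X : Set E => (e ∉ M.closure X : Prop)).comp h1
  exact measurableSet_setOfPred.mpr h2

theorem isoS_eq (e : E) : isoS M e =
    (fun (v : E → ℝ≥0) (i : ↥(Finset.univ.erase e)) => v i) ⁻¹' isoT M e := by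
  ext v
  unfold isoS isoT
  simp only [Set.mem_preimage, Set.mem_ofPred_eq]
  have h1 : {f | f ≠ e ∧ 0 < v f} =
      {f | ∃ _ : f ∈ Finset.univ.erase e, 0 < v f} := by
    ext f
    simp
  rw [h1]

theorem measurableSet_isoS (e : E) : MeasurableSet (isoS M e) := by
  rw [isoS_eq]
  refine (measurableSet_isoT M e).preimage ?_
  exact measurable_pi_lambda _ fun i => measurable_pi_apply _

theorem iso_indep (e : E) (p : ℝ≥0∞) (hp : p ≤ Measure.pi D (isoS M e)) :
    p * ∫⁻ v, (v e : ℝ≥0∞) ∂(Measure.pi D) ≤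
      ∫⁻ v, (isoS M e).indicator (fun v : E → ℝ≥0 => (v e : ℝ≥0∞)) v ∂(Measure.pi D) := by
  have hI : iIndepFun (fun (i : E) (v : E → ℝ≥0) => v i) (Measure.pi D) :=
    iIndepFun_pi (μ := D) (X := fun _ => id) fun i => aemeasurable_id
  have h1 := hI.indepFun_finset (Finset.univ.erase e) {e} (by simp) fun i => measurable_pi_apply i
  have h2 : IndepFun (fun v : E → ℝ≥0 => (isoS M e).indicator (1 : (E → ℝ≥0) → ℝ≥0∞) v)
      (fun v : E → ℝ≥0 => (v e : ℝ≥0∞)) (Measure.pi D) := by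
    have h3 := h1.comp (φ := (isoT M e).indicator (1 : (↥(Finset.univ.erase e) → ℝ≥0) → ℝ≥0∞))
      (ψ := fun u : (↥({e} : Finset E) → ℝ≥0) =>
        (u ⟨e, Finset.mem_singleton_self e⟩ : ℝ≥0∞))
      (measurable_one.indicator (measurableSet_isoT M e))
      (measurable_coe_nnreal_ennreal.comp (measurable_pi_apply _))
    have h4 : (fun v : E → ℝ≥0 => (isoS M e).indicator (1 : (E → ℝ≥0) → ℝ≥0∞) v) =
        (isoT M e).indicator (1 : (↥(Finset.univ.erase e) → ℝ≥0) → ℝ≥0∞) ∘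
          fun (v : E → ℝ≥0) (i : ↥(Finset.univ.erase e)) => v i := by
      funext v
      rw [isoS_eq]
      rfl
    rw [h4]
    exact h3
  have hm1 : Measurable fun v : E → ℝ≥0 =>
      (isoS M e).indicator (1 : (E → ℝ≥0) → ℝ≥0∞) v :=
    measurable_one.indicator (measurableSet_isoS M e)
  have hm2 : Measurable fun v : E → ℝ≥0 => (v e : ℝ≥0∞) :=
    measurable_coe_nnreal_ennreal.comp (measurable_pi_apply e)
  have h5 := lintegral_mul_eq_lintegral_mul_lintegral_of_indepFun'' hm1.aemeasurable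
    hm2.aemeasurable h2
  have h6 : ∫⁻ v, (isoS M e).indicator (1 : (E → ℝ≥0) → ℝ≥0∞) v ∂(Measure.pi D) =
      Measure.pi D (isoS M e) := lintegral_indicator_one (measurableSet_isoS M e)
  calc p * ∫⁻ v, (v e : ℝ≥0∞) ∂(Measure.pi D)
      ≤ Measure.pi D (isoS M e) * ∫⁻ v, (v e : ℝ≥0∞) ∂(Measure.pi D) := mul_le_mul_left hp _
    _ = ∫⁻ v, (isoS M e).indicator (1 : (E → ℝ≥0) → ℝ≥0∞) v * (v e : ℝ≥0∞)
          ∂(Measure.pi D) := by rw [← h6, h5]
    _ = _ := by
        refine lintegral_congr fun v => ?_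
        by_cases hv : v ∈ isoS M e
        · rw [indicator_of_mem hv, indicator_of_mem hv]
          simp
        · rw [indicator_of_notMem hv, indicator_of_notMem hv, zero_mul]

/-- the greedy rule collects the isolated elements -/
theorem iso_part (p : ℝ≥0∞) (G : Finset E) (hp : ∀ e, e ∉ G → p ≤ Measure.pi D (isoS M e))
    (o : (E → ℝ≥0) → (E → ℝ≥0) → List E) (ho : ∀ s v, (o s v).Nodup)
    (hall : ∀ s v e, e ∈ o s v) :
    p * ∑ e ∈ Gᶜ, ∫⁻ v, (v e : ℝ≥0∞) ∂(Measure.pi D) ≤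
      ∫⁻ z, gain (theRule M fun _ _ => ∅) z.1 z.2 (o z.1 z.2)
        ∂((Measure.pi D).prod (Measure.pi D)) := by
  have hm : ∀ e, Measurable fun v : E → ℝ≥0 =>
      (isoS M e).indicator (fun v : E → ℝ≥0 => (v e : ℝ≥0∞)) v := fun e =>
    (measurable_coe_nnreal_ennreal.comp (measurable_pi_apply e)).indicator
      (measurableSet_isoS M e)
  have hms : Measurable fun v : E → ℝ≥0 => ∑ e ∈ Gᶜ,
      (isoS M e).indicator (fun v : E → ℝ≥0 => (v e : ℝ≥0∞)) v :=
    Finset.measurable_sum _ fun e _ => hm e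
  calc p * ∑ e ∈ Gᶜ, ∫⁻ v, (v e : ℝ≥0∞) ∂(Measure.pi D)
      = ∑ e ∈ Gᶜ, p * ∫⁻ v, (v e : ℝ≥0∞) ∂(Measure.pi D) := Finset.mul_sum _ _ _
    _ ≤ ∑ e ∈ Gᶜ, ∫⁻ v, (isoS M e).indicator (fun v : E → ℝ≥0 => (v e : ℝ≥0∞)) v
          ∂(Measure.pi D) := Finset.sum_le_sum fun e he =>
        iso_indep M D e p (hp e (Finset.mem_compl.mp he))
    _ = ∫⁻ v, ∑ e ∈ Gᶜ, (isoS M e).indicator (fun v : E → ℝ≥0 => (v e : ℝ≥0∞)) v
          ∂(Measure.pi D) := by
        rw [lintegral_finsetSum]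
        exact fun e _ => hm e
    _ = ∫⁻ z, ∑ e ∈ Gᶜ, (isoS M e).indicator (fun v : E → ℝ≥0 => (v e : ℝ≥0∞)) z.2
          ∂((Measure.pi D).prod (Measure.pi D)) :=
        ((measurePreserving_snd (μ := Measure.pi D) (ν := Measure.pi D)).lintegral_comp
          hms).symm
    _ ≤ _ := by
        refine lintegral_mono fun z => ?_
        unfold gain
        have h1 : ∑ e ∈ Gᶜ, (isoS M e).indicator (fun v : E → ℝ≥0 => (v e : ℝ≥0∞)) z.2 ≤
            ∑ e ∈ Gᶜ, (if e ∈ accepted (theRule M fun _ _ => ∅) z.1 z.2 (o z.1 z.2) then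
              (z.2 e : ℝ≥0∞) else 0) := by
          refine Finset.sum_le_sum fun e _ => ?_
          by_cases hz : z.2 ∈ isoS M e
          · rw [indicator_of_mem hz]
            rcases eq_or_lt_of_le (zero_le (a := z.2 e)) with h0 | h0
            · rw [← h0]
              simp
            · rw [if_pos (greedy_mem M z.1 z.2 (o z.1 z.2) (ho _ _) e (hall _ _ e) h0 hz)]
          · rw [indicator_of_notMem hz]
            exact zero_le
        refine h1.trans ?_
        rw [← Finset.sum_filter]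
        refine Finset.sum_le_sum_of_subset ?_
        intro e he
        exact (Finset.mem_filter.mp he).2

omit [DecidableEq E] in
theorem R_split [DecidableEq E] (hM : M.E = univ) (G : Finset E) (c : ℝ≥0) (v : E → ℝ≥0) :
    (R M {f | c ≤ v f} : ℝ≥0∞) ≤ (R M ({f | c ≤ v f} ∩ (G : Set E)) : ℝ≥0∞) +
      ∑ e ∈ Gᶜ, if c ≤ v e then (1 : ℝ≥0∞) else 0 := by
  obtain ⟨I, hI, hIX, hc⟩ := exists_basis M hM {f | c ≤ v f}
  have h1 : (I.filter fun e => e ∈ G).card ≤ R M ({f | c ≤ v f} ∩ (G : Set E)) := by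
    refine card_le_R M _ (hI.subset ?_) ?_
    · intro x hx
      exact (Finset.mem_filter.mp hx).1
    · intro x hx
      have hx' := Finset.mem_filter.mp hx
      exact ⟨hIX hx'.1, hx'.2⟩
  have h2 : (I.filter fun e => ¬ e ∈ G) ⊆ Gᶜ.filter fun e => c ≤ v e := by
    intro x hx
    have hx' := Finset.mem_filter.mp hx
    rw [Finset.mem_filter, Finset.mem_compl]
    exact ⟨hx'.2, hIX hx'.1⟩
  have h3 := Finset.card_le_card h2
  have h4 := Finset.card_filter_add_card_filter_not (s := I) (fun e => e ∈ G)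
  rw [← Finset.sum_filter, Finset.sum_const, nsmul_eq_mul, mul_one]
  have h5 : R M {f | c ≤ v f} ≤ R M ({f | c ≤ v f} ∩ (G : Set E)) +
      (Gᶜ.filter fun e => c ≤ v e).card := by omega
  exact_mod_cast h5

theorem XX_split (hM : M.E = univ) (G : Finset E) :
    XX M D ≤ XG M D (G : Set E) + 2 * ∑ e ∈ Gᶜ, ∫⁻ v, (v e : ℝ≥0∞) ∂(Measure.pi D) := by
  have hm : ∀ (e : E) (c : ℝ≥0), Measurable fun v : E → ℝ≥0 =>
      if c ≤ v e then (1 : ℝ≥0∞) else 0 := fun e c =>
    Measurable.ite (measurableSet_le measurable_const (measurable_pi_apply e))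
      measurable_const measurable_const
  have h1 : ∀ J : ℤ, (tt J : ℝ≥0∞) * rr M D (tt J) ≤
      (tt J : ℝ≥0∞) * ∫⁻ v, (R M ({f | tt J ≤ v f} ∩ (G : Set E)) : ℝ≥0∞) ∂(Measure.pi D) +
      ∑ e ∈ Gᶜ, ∫⁻ v, (if tt J ≤ v e then (tt J : ℝ≥0∞) else 0) ∂(Measure.pi D) := by
    intro J
    have h2 : rr M D (tt J) ≤
        ∫⁻ v, (R M ({f | tt J ≤ v f} ∩ (G : Set E)) : ℝ≥0∞) ∂(Measure.pi D) +
        ∑ e ∈ Gᶜ, ∫⁻ v, (if tt J ≤ v e then (1 : ℝ≥0∞) else 0) ∂(Measure.pi D) := by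
      unfold rr
      rw [← lintegral_finsetSum _ fun e _ => hm e (tt J),
        ← lintegral_add_left (measurable_RG M (G : Set E) (tt J))]
      exact lintegral_mono fun v => R_split M hM G (tt J) v
    refine (mul_le_mul_right h2 _).trans (le_of_eq ?_)
    rw [mul_add, Finset.mul_sum]
    congr 1
    refine Finset.sum_congr rfl fun e _ => ?_
    rw [← lintegral_const_mul _ (hm e (tt J))]
    refine lintegral_congr fun v => ?_
    by_cases h : tt J ≤ v e
    · rw [if_pos h, if_pos h, mul_one]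
    · rw [if_neg h, if_neg h, mul_zero]
  have h3 : ∑' J : ℤ, ∑ e ∈ Gᶜ, ∫⁻ v, (if tt J ≤ v e then (tt J : ℝ≥0∞) else 0)
      ∂(Measure.pi D) = ∑ e ∈ Gᶜ, ∫⁻ v, GG (v e) ∂(Measure.pi D) := by
    rw [Summable.tsum_finsetSum fun _ _ => ENNReal.summable]
    refine Finset.sum_congr rfl fun e _ => ?_
    unfold GG
    rw [lintegral_tsum]
    intro J
    exact (Measurable.ite (measurableSet_le measurable_const (measurable_pi_apply e))
      measurable_const measurable_const).aemeasurable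
  calc XX M D ≤ ∑' J : ℤ, ((tt J : ℝ≥0∞) *
        ∫⁻ v, (R M ({f | tt J ≤ v f} ∩ (G : Set E)) : ℝ≥0∞) ∂(Measure.pi D) +
        ∑ e ∈ Gᶜ, ∫⁻ v, (if tt J ≤ v e then (tt J : ℝ≥0∞) else 0) ∂(Measure.pi D)) :=
        ENNReal.tsum_le_tsum h1
    _ = XG M D (G : Set E) + ∑ e ∈ Gᶜ, ∫⁻ v, GG (v e) ∂(Measure.pi D) := by
        rw [ENNReal.tsum_add, h3]
        rfl
    _ ≤ _ := by
        refine add_le_add le_rfl ?_
        rw [Finset.mul_sum]
        refine Finset.sum_le_sum fun e _ => ?_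
        rw [← lintegral_const_mul' _ _ (by norm_num)]
        exact lintegral_mono fun v => GG_le (v e)

end Vale.Agent.P331
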