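import Vale.Agent.Lib.P331.Exp

/-!
# P331: the loaded part
-/

open MeasureTheory Set
open scoped ENNReal NNReal

namespace Vale.Agent.P331

variable {E : Type} [Fintype E] [DecidableEq E] (M : Matroid E)
variable (D : E → Measure ℝ≥0) [∀ e, IsProbabilityMeasure (D e)]

/-- dyadic sum of the expected ranks inside `G` -/
noncomputable def XG (G : Set E) : ℝ≥0∞ :=
  ∑' J : ℤ, (tt J : ℝ≥0∞) * ∫⁻ v, (R M ({f | tt J ≤ v f} ∩ G) : ℝ≥0∞) ∂(Measure.pi D)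

omit [DecidableEq E] [∀ e, IsProbabilityMeasure (D e)] in
theorem shift_sum (l : ℕ) :
    ∑' J : ℤ, (tt J : ℝ≥0∞) * rr M D (tt (J + l)) = ((2 : ℝ≥0∞) ^ l)⁻¹ * XX M D := by
  have h0 : (2 : ℝ≥0∞) ^ l ≠ 0 := pow_ne_zero _ (by norm_num)
  have h1 : (2 : ℝ≥0∞) ^ l ≠ ⊤ := ENNReal.pow_ne_top (by norm_num)
  have h2 : ∀ J : ℤ, (tt J : ℝ≥0∞) * rr M D (tt (J + l)) =
      ((2 : ℝ≥0∞) ^ l)⁻¹ * ((tt (J + l) : ℝ≥0∞) * rr M D (tt (J + l))) := by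
    intro J
    rw [← mul_assoc]
    congr 1
    rw [tt_add, ENNReal.coe_mul, ENNReal.coe_pow]
    rw [← mul_assoc]
    have h3 : ((2 : ℝ≥0) : ℝ≥0∞) = 2 := rfl
    rw [h3, ENNReal.inv_mul_cancel h0 h1, one_mul]
  rw [tsum_congr h2, ENNReal.tsum_mul_left]
  congr 1
  unfold XX
  exact (Equiv.addRight (l : ℤ)).tsum_eq fun J : ℤ => (tt J : ℝ≥0∞) * rr M D (tt J)

omit [DecidableEq E] in
theorem measurable_three (F : Set E → Set E → Set E → ℝ≥0∞) (a b c : ℝ≥0) :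
    Measurable fun z : (E → ℝ≥0) × (E → ℝ≥0) =>
      F {f | a ≤ z.1 f} {f | b ≤ z.1 f} {f | c ≤ z.2 f} := by
  have h1 : Measurable fun z : (E → ℝ≥0) × (E → ℝ≥0) =>
      (({f | a ≤ z.1 f}, ({f | b ≤ z.1 f}, {f | c ≤ z.2 f})) : Set E × Set E × Set E) :=
    ((measurable_lev a).comp measurable_fst).prodMk
      (((measurable_lev b).comp measurable_fst).prodMk ((measurable_lev c).comp measurable_snd))
  exact (measurable_of_finite fun X : Set E × Set E × Set E => F X.1 X.2.1 X.2.2).comp h1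

/-- excess of the protected rank over the rank of the high sample -/
noncomputable def hh (K : ℝ≥0) (l : ℕ) (J : ℤ) (z : (E → ℝ≥0) × (E → ℝ≥0)) : ℝ≥0∞ :=
  ((R M (QQ M (tt J) (tt J / K) z.1 z.2) - R M {f | tt (J + l) ≤ z.1 f} : ℕ) : ℝ≥0∞)

omit [DecidableEq E] in
theorem measurable_hh (K : ℝ≥0) (l : ℕ) (J : ℤ) : Measurable (hh M K l J) :=
  measurable_three (fun A B C => ((R M (C ∩ M.closure A) - R M B : ℕ) : ℝ≥0∞))
    (tt J / K) (tt (J + l)) (tt J)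

omit [DecidableEq E] in
theorem hh_ge (K : ℝ≥0) (l : ℕ) (J : ℤ) (z : (E → ℝ≥0) × (E → ℝ≥0)) :
    (R M (QQ M (tt J) (tt J / K) z.1 z.2) : ℝ≥0∞) ≤
      (R M {f | tt (J + l) ≤ z.1 f} : ℝ≥0∞) + hh M K l J z := by
  have h1 : R M (QQ M (tt J) (tt J / K) z.1 z.2) ≤ R M {f | tt (J + l) ≤ z.1 f} +
      (R M (QQ M (tt J) (tt J / K) z.1 z.2) - R M {f | tt (J + l) ≤ z.1 f}) := by omega
  unfold hh
  exact_mod_cast h1

omit [DecidableEq E] in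
theorem int_QQ_le (K : ℝ≥0) (l : ℕ) (J : ℤ) :
    ∫⁻ z, (R M (QQ M (tt J) (tt J / K) z.1 z.2) : ℝ≥0∞)
      ∂((Measure.pi D).prod (Measure.pi D)) ≤
    rr M D (tt (J + l)) + ∫⁻ z, hh M K l J z ∂((Measure.pi D).prod (Measure.pi D)) := by
  have h1 : ∫⁻ z, (R M {f | tt (J + l) ≤ (z : (E → ℝ≥0) × (E → ℝ≥0)).1 f} : ℝ≥0∞)
      ∂((Measure.pi D).prod (Measure.pi D)) = rr M D (tt (J + l)) :=
    (measurePreserving_fst (μ := Measure.pi D) (ν := Measure.pi D)).lintegral_comp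
      (measurable_R M (tt (J + l)))
  have hm : Measurable fun z : (E → ℝ≥0) × (E → ℝ≥0) =>
      (R M {f | tt (J + l) ≤ z.1 f} : ℝ≥0∞) := (measurable_R M (tt (J + l))).comp measurable_fst
  rw [← h1, ← lintegral_add_left hm]
  exact lintegral_mono fun z => hh_ge M K l J z

theorem loaded_part (hM : M.E = univ) (p : ℝ≥0∞) (l : ℕ) (K : ℝ≥0) (hK : 1 ≤ K) (G : Set E)
    (hD : ∀ e ∈ G, ∀ c : ℝ≥0, 0 < c → D e (Ici c) ≠ 0 →
      p ≤ Measure.pi D {s | e ∈ M.closure {f | c / K ≤ s f}})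
    (o : (E → ℝ≥0) → (E → ℝ≥0) → List E) (ho : ∀ s v, (o s v).Nodup)
    (hall : ∀ s v e, e ∈ o s v) :
    p * XG M D G ≤ ((2 : ℝ≥0∞) ^ l)⁻¹ * XX M D + 2 * ((K * 2 ^ l : ℝ≥0) : ℝ≥0∞) *
      ∫⁻ z, gain (theRule M (WL (2 ^ l))) z.1 z.2 (o z.1 z.2)
        ∂((Measure.pi D).prod (Measure.pi D)) := by
  have hstep1 : p * XG M D G ≤ ∑' J : ℤ, (tt J : ℝ≥0∞) *
      (rr M D (tt (J + l)) + ∫⁻ z, hh M K l J z ∂((Measure.pi D).prod (Measure.pi D))) := by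
    unfold XG
    rw [← ENNReal.tsum_mul_left]
    refine ENNReal.tsum_le_tsum fun J => ?_
    have h1 := (prot M D hM p (tt J) (tt J / K) G fun e he h =>
      hD e he (tt J) (tt_pos J) h).trans (int_QQ_le M D K l J)
    calc p * ((tt J : ℝ≥0∞) * ∫⁻ v, (R M ({f | tt J ≤ v f} ∩ G) : ℝ≥0∞) ∂(Measure.pi D))
        = (tt J : ℝ≥0∞) *
          (p * ∫⁻ v, (R M ({f | tt J ≤ v f} ∩ G) : ℝ≥0∞) ∂(Measure.pi D)) := by ring
      _ ≤ _ := mul_le_mul_right h1 _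
  have hstep2 : ∑' J : ℤ, (tt J : ℝ≥0∞) *
      (rr M D (tt (J + l)) + ∫⁻ z, hh M K l J z ∂((Measure.pi D).prod (Measure.pi D))) =
      ((2 : ℝ≥0∞) ^ l)⁻¹ * XX M D + ∫⁻ z, ∑' J : ℤ, (tt J : ℝ≥0∞) * hh M K l J z
        ∂((Measure.pi D).prod (Measure.pi D)) := by
    rw [lintegral_tsum fun J => ((measurable_hh M K l J).const_mul _).aemeasurable]
    rw [← shift_sum, ← ENNReal.tsum_add]
    refine tsum_congr fun J => ?_
    rw [mul_add, lintegral_const_mul _ (measurable_hh M K l J)]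
  have hstep3 : ∫⁻ z, ∑' J : ℤ, (tt J : ℝ≥0∞) * hh M K l J z
        ∂((Measure.pi D).prod (Measure.pi D)) ≤ 2 * ((K * 2 ^ l : ℝ≥0) : ℝ≥0∞) *
      ∫⁻ z, gain (theRule M (WL (2 ^ l))) z.1 z.2 (o z.1 z.2)
        ∂((Measure.pi D).prod (Measure.pi D)) := by
    rw [← lintegral_const_mul' _ _ (ENNReal.mul_ne_top (by norm_num) ENNReal.coe_ne_top)]
    exact lintegral_mono fun z =>
      gain_ge M hM l K hK z.1 z.2 (o z.1 z.2) (ho _ _) (hall _ _)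
  rw [hstep2] at hstep1
  exact hstep1.trans (add_le_add le_rfl hstep3)

end Vale.Agent.P331
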