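import Vale.Agent.Lib.P331.Iso

/-!
# P331: the two rules together
-/

open MeasureTheory Set ProbabilityTheory
open scoped ENNReal NNReal

namespace Vale.Agent.P331

variable {E : Type} [Fintype E] [DecidableEq E] (M : Matroid E)
variable (D : E → Measure ℝ≥0) [∀ e, IsProbabilityMeasure (D e)]

theorem arith (p K t x g1 g2 : ℝ) (hp0 : 0 < p) (hp1 : p ≤ 1) (hK : 1 ≤ K) (ht : 0 < t)
    (h1 : 2 ≤ t * p) (h2 : t * p ≤ 4) (hx : 0 ≤ x) (hg1 : 0 ≤ g1) (hg2 : 0 ≤ g2)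
    (h : p * x ≤ t⁻¹ * x + 2 * (K * t) * g1 + 2 * g2) :
    p ^ 2 / (32 * K) * x ≤ (g1 + g2) / 2 := by
  have hK0 : 0 < K := by linarith
  have h3 : t⁻¹ ≤ p / 2 := by
    rw [inv_le_comm₀ ht (by positivity)]
    rw [inv_div, div_le_iff₀ hp0]
    exact h1
  have h4 : t⁻¹ * x ≤ p / 2 * x := mul_le_mul_of_nonneg_right h3 hx
  have h5 : p * (p / 2 * x) ≤ p * (2 * (K * t) * g1 + 2 * g2) :=
    mul_le_mul_of_nonneg_left (by linarith) hp0.le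
  have h6 : p * (2 * (K * t) * g1) ≤ 8 * K * g1 := by
    have : (t * p) * (2 * K * g1) ≤ 4 * (2 * K * g1) :=
      mul_le_mul_of_nonneg_right h2 (by positivity)
    linarith
  have h7 : p * (2 * g2) ≤ 8 * K * g2 := by
    have h8 : p * (2 * g2) ≤ 1 * (2 * g2) := mul_le_mul_of_nonneg_right hp1 (by positivity)
    have h9 : 1 * (2 * g2) ≤ K * (8 * g2) :=
      mul_le_mul hK (by linarith) (by positivity) hK0.le
    linarith
  have h10 : p ^ 2 * x ≤ 16 * K * (g1 + g2) := by nlinarith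
  rw [div_mul_eq_mul_div, div_le_iff₀ (by positivity)]
  linarith

theorem combine (hM : M.E = univ) (p K : ℝ≥0) (hp0 : 0 < p) (hp1 : p ≤ 1) (hK : 1 ≤ K) (l : ℕ)
    (h1 : (2 : ℝ≥0) ≤ 2 ^ l * p) (h2 : (2 : ℝ≥0) ^ l * p ≤ 4)
    (hOPT : ∫⁻ v, OPT M v ∂(Measure.pi D) ≠ ⊤)
    (hD : ∀ e, Loaded M D p K e ∨ Isolated M D p e)
    (o1 o2 : (E → ℝ≥0) → (E → ℝ≥0) → List E) (ho1 : ∀ s v, (o1 s v).Nodup)
    (hall1 : ∀ s v e, e ∈ o1 s v) (ho2 : ∀ s v, (o2 s v).Nodup)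
    (hall2 : ∀ s v e, e ∈ o2 s v) :
    ((p ^ 2 / (32 * K) : ℝ≥0) : ℝ≥0∞) * ∫⁻ v, OPT M v ∂(Measure.pi D) ≤
      (∫⁻ z, gain (theRule M (WL (2 ^ l))) z.1 z.2 (o1 z.1 z.2)
        ∂((Measure.pi D).prod (Measure.pi D)) +
      ∫⁻ z, gain (theRule M fun _ _ => ∅) z.1 z.2 (o2 z.1 z.2)
        ∂((Measure.pi D).prod (Measure.pi D))) / 2 := by
  classical
  set G : Finset E := Finset.univ.filter fun e => Loaded M D p K e with hG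
  have hX := XX_ne_top M D hM hOPT
  have hle := OPT_le_XX M D
  have a1 := loaded_part M D hM (p : ℝ≥0∞) l K hK (G : Set E)
    (fun e he => (Finset.mem_filter.mp (Finset.mem_coe.mp he)).2) o1 ho1 hall1
  have a2 := iso_part M D (p : ℝ≥0∞) G (fun e he => by
    rcases hD e with h | h
    · exact absurd (Finset.mem_filter.mpr ⟨Finset.mem_univ e, h⟩) he
    · exact h) o2 ho2 hall2
  have a3 := XX_split M D hM G
  set Γ1 := ∫⁻ z, gain (theRule M (WL (2 ^ l))) z.1 z.2 (o1 z.1 z.2)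
        ∂((Measure.pi D).prod (Measure.pi D)) with hΓ1
  set Γ2 := ∫⁻ z, gain (theRule M fun _ _ => ∅) z.1 z.2 (o2 z.1 z.2)
        ∂((Measure.pi D).prod (Measure.pi D)) with hΓ2
  refine (mul_le_mul_right hle _).trans ?_
  by_cases ht1 : Γ1 = ⊤
  · rw [ht1, top_add, ENNReal.top_div_of_ne_top (by norm_num)]
    exact le_top
  by_cases ht2 : Γ2 = ⊤
  · rw [ht2, add_top, ENNReal.top_div_of_ne_top (by norm_num)]
    exact le_top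
  have a4 : (p : ℝ≥0∞) * XX M D ≤ ((2 : ℝ≥0∞) ^ l)⁻¹ * XX M D +
      2 * ((K * 2 ^ l : ℝ≥0) : ℝ≥0∞) * Γ1 + 2 * Γ2 := by
    calc (p : ℝ≥0∞) * XX M D
        ≤ (p : ℝ≥0∞) * (XG M D (G : Set E) +
          2 * ∑ e ∈ Gᶜ, ∫⁻ v, (v e : ℝ≥0∞) ∂(Measure.pi D)) := mul_le_mul_right a3 _
      _ = (p : ℝ≥0∞) * XG M D (G : Set E) + 2 * ((p : ℝ≥0∞) *
          ∑ e ∈ Gᶜ, ∫⁻ v, (v e : ℝ≥0∞) ∂(Measure.pi D)) := by ring
      _ ≤ _ := add_le_add a1 (mul_le_mul_right a2 _)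
  lift XX M D to ℝ≥0 using hX with x hx
  lift Γ1 to ℝ≥0 using ht1 with g1 hg1
  lift Γ2 to ℝ≥0 using ht2 with g2 hg2
  have h2pow : ((2 : ℝ≥0∞) ^ l)⁻¹ = (((2 : ℝ≥0) ^ l)⁻¹ : ℝ≥0) := by
    rw [ENNReal.coe_inv (pow_ne_zero _ (by norm_num)), ENNReal.coe_pow]
    rfl
  rw [h2pow] at a4
  have a5 : p * x ≤ ((2 : ℝ≥0) ^ l)⁻¹ * x + 2 * (K * 2 ^ l) * g1 + 2 * g2 := by
    have e2 : (2 : ℝ≥0∞) = ((2 : ℝ≥0) : ℝ≥0∞) := rfl
    rw [e2] at a4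
    exact_mod_cast a4
  have a6 := arith (p : ℝ) (K : ℝ) ((2 : ℝ) ^ l) (x : ℝ) (g1 : ℝ) (g2 : ℝ)
    (by exact_mod_cast hp0) (by exact_mod_cast hp1) (by exact_mod_cast hK) (by positivity)
    (by exact_mod_cast h1) (by exact_mod_cast h2) x.2 g1.2 g2.2 (by exact_mod_cast a5)
  have a7 : p ^ 2 / (32 * K) * x ≤ (g1 + g2) / 2 := by exact_mod_cast a6
  have e3 : ((g1 : ℝ≥0∞) + (g2 : ℝ≥0∞)) / 2 = (((g1 + g2) / 2 : ℝ≥0) : ℝ≥0∞) := by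
    rw [ENNReal.coe_div (by norm_num), ENNReal.coe_add]
    rfl
  rw [e3]
  exact_mod_cast a7

theorem exists_l (p : ℝ≥0) (hp0 : 0 < p) (hp1 : p ≤ 1) :
    ∃ l : ℕ, (2 : ℝ≥0) ≤ 2 ^ l * p ∧ (2 : ℝ≥0) ^ l * p ≤ 4 := by
  classical
  have hex : ∃ l : ℕ, (2 : ℝ≥0) ≤ 2 ^ l * p := by
    obtain ⟨n, hn⟩ := pow_unbounded_of_one_lt (2 / p) (one_lt_two : (1 : ℝ≥0) < 2)
    refine ⟨n, ?_⟩
    rw [div_lt_iff₀ hp0] at hn
    exact hn.le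
  refine ⟨Nat.find hex, Nat.find_spec hex, ?_⟩
  rcases Nat.eq_zero_or_pos (Nat.find hex) with h0 | h0
  · rw [h0, pow_zero, one_mul]
    exact hp1.trans (by norm_num)
  · have h1 := Nat.find_min hex (Nat.pred_lt h0.ne')
    rw [not_le] at h1
    have h2 : (2 : ℝ≥0) ^ (Nat.find hex) = 2 * 2 ^ (Nat.find hex).pred := by
      rw [← pow_succ']
      congr 1
      exact (Nat.succ_pred_eq_of_pos h0).symm
    rw [h2]
    calc 2 * 2 ^ (Nat.find hex).pred * p = 2 * (2 ^ (Nat.find hex).pred * p) := by ring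
      _ ≤ 2 * 2 := mul_le_mul_right h1.le 2
      _ = 4 := by norm_num

end Vale.Agent.P331
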