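import Vale.Agent.Lib.P331.Main

/-!
# P331: the rules are measurable
-/

open MeasureTheory Set
open scoped ENNReal NNReal

namespace Vale.Agent.P331

variable {E : Type} [Fintype E] [DecidableEq E] (M : Matroid E)

theorem meas_okP (W : (E → ℝ≥0) → ℝ≥0 → Set E)
    (hW : Measurable fun z : (E → ℝ≥0) × ℝ≥0 => W z.1 z.2) (B : Finset E) (e : E) :
    MeasurableSet {z : (E → ℝ≥0) × (E → ℝ≥0) | okP M W z.1 B e (z.2 e)} := by
  have h1 : MeasurableSet {z : (E → ℝ≥0) × (E → ℝ≥0) | 0 < z.2 e} :=
    measurableSet_lt measurable_const ((measurable_pi_apply e).comp measurable_snd)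
  have h2 : Measurable fun z : (E → ℝ≥0) × (E → ℝ≥0) => W z.1 (z.2 e) :=
    hW.comp (measurable_fst.prodMk ((measurable_pi_apply e).comp measurable_snd))
  have h3 : Measurable fun z : (E → ℝ≥0) × (E → ℝ≥0) =>
      (e ∉ M.closure ((B : Set E) ∪ W z.1 (z.2 e)) : Prop) :=
    (measurable_of_finite fun X : Set E => (e ∉ M.closure ((B : Set E) ∪ X) : Prop)).comp h2
  exact h1.inter (measurableSet_setOfPred.mpr h3)

theorem meas_acc (W : (E → ℝ≥0) → ℝ≥0 → Set E)
    (hW : Measurable fun z : (E → ℝ≥0) × ℝ≥0 => W z.1 z.2) (l : List E) (A : Finset E) :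
    MeasurableSet {z : (E → ℝ≥0) × (E → ℝ≥0) | accepted (theRule M W) z.1 z.2 l = A} := by
  induction l generalizing A with
  | nil =>
    have h1 : {z : (E → ℝ≥0) × (E → ℝ≥0) | accepted (theRule M W) z.1 z.2 [] = A} =
        {_z | (∅ : Finset E) = A} := rfl
    rw [h1]
    exact MeasurableSet.const _
  | cons e l ih =>
    have h1 : {z : (E → ℝ≥0) × (E → ℝ≥0) | accepted (theRule M W) z.1 z.2 (e :: l) = A} =
        ⋃ B : Finset E, ({z : (E → ℝ≥0) × (E → ℝ≥0) | accepted (theRule M W) z.1 z.2 l = B} ∩
          (({z | okP M W z.1 B e (z.2 e)} ∩ {_z | insert e B = A}) ∪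
            ({z | okP M W z.1 B e (z.2 e)}ᶜ ∩ {_z | B = A}))) := by
      ext z
      simp only [Set.mem_iUnion, Set.mem_inter_iff, Set.mem_union, Set.mem_compl_iff,
        Set.mem_ofPred_eq]
      constructor
      · intro h
        refine ⟨accepted (theRule M W) z.1 z.2 l, rfl, ?_⟩
        rcases accepted_cons M W z.1 z.2 e l with ⟨hok, h2⟩ | ⟨hok, h2⟩
        · left
          exact ⟨hok, by rw [← h2, h]⟩
        · right
          exact ⟨hok, by rw [← h2, h]⟩
      · rintro ⟨B, hB, h⟩
        rcases accepted_cons M W z.1 z.2 e l with ⟨hok, h2⟩ | ⟨hok, h2⟩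
        · rw [hB] at hok
          rcases h with h | h
          · rw [h2, hB]
            exact h.2
          · exact absurd hok h.1
        · rw [hB] at hok
          rcases h with h | h
          · exact absurd h.1 hok
          · rw [h2, hB]
            exact h.2
    rw [h1]
    refine MeasurableSet.iUnion fun B => (ih B).inter ?_
    exact ((meas_okP M W hW B e).inter (MeasurableSet.const _)).union
      ((meas_okP M W hW B e).compl.inter (MeasurableSet.const _))

omit [Fintype E] in
theorem theRule_cons (W : (E → ℝ≥0) → ℝ≥0 → Set E) (s v : E → ℝ≥0) (e : E) (l : List E) :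
    theRule M W s ((e :: l).map fun f => (f, v f)) = true ↔
      okP M W s (accH M W s (l.map fun f => (f, v f))) e (v e) := by
  simp [theRule]

theorem ruleMeasurable (W : (E → ℝ≥0) → ℝ≥0 → Set E)
    (hW : Measurable fun z : (E → ℝ≥0) × ℝ≥0 => W z.1 z.2) :
    RuleMeasurable (theRule M W) := by
  intro l
  cases l with
  | nil =>
    have h1 : {z : (E → ℝ≥0) × (E → ℝ≥0) |
        theRule M W z.1 (([] : List E).map fun f => (f, z.2 f)) = true} = ∅ := by
      ext z
      simp [theRule]
    rw [h1]
    exact MeasurableSet.empty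
  | cons e l =>
    have h1 : {z : (E → ℝ≥0) × (E → ℝ≥0) |
        theRule M W z.1 ((e :: l).map fun f => (f, z.2 f)) = true} =
        ⋃ B : Finset E, ({z : (E → ℝ≥0) × (E → ℝ≥0) | accepted (theRule M W) z.1 z.2 l = B} ∩
          {z | okP M W z.1 B e (z.2 e)}) := by
      ext z
      simp only [Set.mem_iUnion, Set.mem_inter_iff, Set.mem_ofPred_eq, accepted_eq,
        exists_eq_left']
      exact theRule_cons M W z.1 z.2 e l
    rw [h1]
    exact MeasurableSet.iUnion fun B => (meas_acc M W hW l B).inter (meas_okP M W hW B e)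

omit [DecidableEq E] in
theorem measurable_WL (L : ℝ≥0) :
    Measurable fun z : (E → ℝ≥0) × ℝ≥0 => WL L z.1 z.2 := by
  rw [measurable_set_iff]
  intro a
  exact measurableSet_setOfPred.mp (measurableSet_le (measurable_snd.const_mul L)
    ((measurable_pi_apply a).comp measurable_fst))

end Vale.Agent.P331
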